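import Claimed.Agent.Lib.Gmt.IF
import Claimed.Agent.Lib.Gmt.FlTop
import Claimed.Agent.Lib.Gmt.SimTop
import Claimed.Agent.Lib.Gmt.CoA
import Claimed.Agent.Lib.Gmt.SpA

/-!
# Row 323 (S0580, Solomon-Yau least volume).  DEFINITIONS OF THE INTERFACES.   Captain: helper20.

ROUTE (report 863; notes on branch `origin/helper20`, folder `notes/r323/`): Allen-Cahn min-max instead of Almgren-Pitts, used only in the
density `< 2` regime.   EVERYTHING IS AMBIENT: `n = m + 2`, `E n = EuclideanSpace ℝ (Fin n)`.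
* A closed embedded smooth minimal hypersurface `Σ^m ⊆ S^{m+1}` is modelled by the CONE `S ⊆ E (m+2)` over one of its two sides: `MinCone (m+2) S`.
  `|Σ| = linkArea S = (m+1) μ_S(B_1)`.
* Functions on `S^{m+1}` are modelled by their `0`-homogeneous extensions `U : E (m+2) → ℝ`; the Allen-Cahn equation on the sphere becomes
  `ε² |x|² ΔU = W'(U)` with the FLAT Laplacian (`AcSol`); the normalised energy is `acE` (`→ |Σ|` for a multiplicity one interface).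
* blocks:  N numerics, A adapter, B min-max + gap, C HT-lite, D Allard glue + cones, E family, F index.   One contract file `R323/<Xx>/Main.lean` per block.
-/

set_option autoImplicit false
open scoped ContDiff ENNReal NNReal RealInnerProductSpace Topology
open MeasureTheory Metric Set Filter

namespace Claimed.Agent.R323

open Claimed.Agent.Gmt

variable {n : ℕ}

/-! ### minimal cones -/

/-- the internal model of a closed embedded smooth minimal hypersurface of the unit sphere of `E k`: the cone over one of its sides. -/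
structure MinCone (k : ℕ) (S : Set (E k)) : Prop where
  meas : MeasurableSet S
  cone : GmtCone S
  lf : GmtLF S univ
  vert : (0 : E k) ∈ gmtBd S
  reg : ∀ x ∈ gmtBd S, x ≠ 0 → GmtReg S x
  stat : ∀ X, GmtTestS univ X → gmtDelta S X = 0

/-- the area of the link: `|Σ| = (k-1) μ_S(B_1)`. -/
noncomputable def linkArea {k : ℕ} (S : Set (E k)) : ℝ := ((k : ℝ) - 1) * (gmtMu S (ball 0 1)).toReal

/-- `S` is a half space through the origin (up to a null set). -/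
def IsHalf {k : ℕ} (S : Set (E k)) : Prop := ∃ e : E k, ‖e‖ = 1 ∧ (S : Set (E k)) =ᵐ[volume] gmtHalf 0 e

/-- `σ_m = |S^m|`, as the link area of a half space of `E (m+2)`. -/
noncomputable def sig (m : ℕ) : ℝ := linkArea (gmtHalf (0 : E (m + 2)) (eb 0))

/-- one side of the cone over the Clifford product `S^j(√(j/m)) × S^{m-j}(√((m-j)/m))` (first factor: the coordinates `i ≤ j`). -/
def cliffCone (m j : ℕ) : Set (E (m + 2)) :=
  {x | ((m : ℝ) - j) * (∑ i : Fin (m + 2) with i.val ≤ j, x i ^ 2) < (j : ℝ) * ∑ i : Fin (m + 2) with j < i.val, x i ^ 2}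

/-- `a_m`: the least Clifford area. -/
noncomputable def cliffMin (m : ℕ) : ℝ := sInf ((fun j => linkArea (cliffCone m j)) '' {j | 1 ≤ j ∧ j < m})

/-- **the internal theorem `T(m)`**. -/
def TT (m : ℕ) : Prop := ∀ S : Set (E (m + 2)), MinCone (m + 2) S → ¬ IsHalf S → cliffMin m ≤ linkArea S

/-! ### Allen-Cahn -/

/-- the double well. -/
noncomputable def acW (s : ℝ) : ℝ := (1 - s ^ 2) ^ 2 / 4

/-- its derivative. -/
noncomputable def acW' (s : ℝ) : ℝ := s ^ 3 - s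

/-- `2σ₀ = ∫_{-1}^{1} √(2W) = 2√2/3`: the energy of the heteroclinic `tanh(t/√2)`. -/
noncomputable def acC : ℝ := 2 * Real.sqrt 2 / 3

/-- a smooth solution of the Allen-Cahn equation on the unit sphere of `E n`, extended `0`-homogeneously. -/
structure AcSol (n : ℕ) (ε : ℝ) (U : E n → ℝ) : Prop where
  smooth : ContDiffOn ℝ ∞ U {0}ᶜ
  hom : ∀ t : ℝ, 0 < t → ∀ x, U (t • x) = U x
  bdd : ∀ x, |U x| ≤ 1
  eq : ∀ x, x ≠ 0 → ε ^ 2 * ‖x‖ ^ 2 * flLap U x = acW' (U x)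

/-- the normalised energy `(2σ₀)⁻¹ ∫_{S^{n-1}} (ε|∇u|²/2 + W(u)/ε)` of a `0`-homogeneous function (`∫_{S^{n-1}} f = n ∫_{B_1} f` for `0`-homogeneous `f`). -/
noncomputable def acE (n : ℕ) (ε : ℝ) (U : E n → ℝ) : ℝ :=
  (n : ℝ) / acC * ∫ x in ball (0 : E n) 1, (ε / 2 * ‖x‖ ^ 2 * ‖fderiv ℝ U x‖ ^ 2 + acW (U x) / ε)

/-- the parameter space `Q = \bar B^{m+2} × [-3,3]`. -/
def acQ (m : ℕ) : Set (E (m + 2) × ℝ) := {q | ‖q.1‖ ≤ 1 ∧ |q.2| ≤ 3}

/-- its boundary. -/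
def acQb (m : ℕ) : Set (E (m + 2) × ℝ) := {q | q ∈ acQ m ∧ (‖q.1‖ = 1 ∨ |q.2| = 3)}

/-- an admissible family of Lipschitz functions: sup-norm continuous, odd on the boundary of `Q`. -/
structure AcFam (m : ℕ) (h : E (m + 2) × ℝ → E (m + 2) → ℝ) : Prop where
  hom : ∀ q ∈ acQ m, ∀ t : ℝ, 0 < t → ∀ x, h q (t • x) = h q x
  lip : ∀ q ∈ acQ m, ∃ L : ℝ≥0, LipschitzOnWith L (h q) (sphere 0 1)
  bdd : ∀ q ∈ acQ m, ∀ x, |h q x| ≤ 1
  cont : ∀ q₀ ∈ acQ m, ∀ δ > 0, ∃ ρ > 0, ∀ q ∈ acQ m, dist q q₀ < ρ → ∀ x ∈ sphere (0 : E (m + 2)) 1, |h q x - h q₀ x| ≤ δ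
  odd : ∀ q ∈ acQb m, ∀ x, h (-q) x = - h q x

/-- what the other blocks know about the Allen-Cahn width `w ε = c_ε / 2σ₀`.   In `le` the energy bound is only asked for `|v| < 1` (lower semicontinuity: `Mm/Lsc.lean`). -/
structure WidthSpec (m : ℕ) (w : ℝ → ℝ) : Prop where
  sol : ∀ ε, 0 < ε → ∃ U, AcSol (m + 2) ε U ∧ acE (m + 2) ε U = w ε
  gap : ∃ g : ℝ, 1 < g ∧ ∀ᶠ ε in 𝓝[>] (0 : ℝ), g * sig m ≤ w ε
  le : ∀ ε, 0 < ε → ∀ h, AcFam m h → ∀ c : ℝ, (∀ q ∈ acQ m, ‖q.1‖ < 1 → acE (m + 2) ε (h q) ≤ c) → w ε ≤ c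

/-! ### blow-up classes -/

/-- `S'` is a blow-up limit of `S` at `x` along a subsequence of `r`, WITHOUT LOSS OF MASS. -/
def BlowTo (S : Set (E n)) (x : E n) (r : ℕ → ℝ) (S' : Set (E n)) : Prop :=
  ∃ φ : ℕ → ℕ, StrictMono φ ∧ GmtConv univ (fun j => gmtDil x (r (φ j)) S) S' ∧
    GmtWk univ (fun j => gmtMu (gmtDil x (r (φ j)) S)) (gmtMu S')

/-- a class of stationary boundaries in `E n` with density ratios `≤ Θ`, closed under blow-up without loss of mass (this replaces Allard's compactness theorem). -/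
structure BlowClass (n : ℕ) (Θ : ℝ) (K : Set (E n) → Prop) : Prop where
  meas : ∀ S, K S → MeasurableSet S
  lf : ∀ S, K S → GmtLF S univ
  stat : ∀ S, K S → ∀ X, GmtTestS univ X → gmtDelta S X = 0
  dens : ∀ S, K S → ∀ x r, 0 < r → gmtMu S (ball x r) ≤ ENNReal.ofReal (Θ * gmtOm (n - 1) * r ^ (n - 1))
  blow : ∀ S, K S → ∀ x, ∀ r : ℕ → ℝ, (∀ j, 0 < r j) → Tendsto r atTop (𝓝 0) → ∃ S', K S' ∧ BlowTo S x r S'
  congr : ∀ S S', K S → MeasurableSet S' → (S : Set (E n)) =ᵐ[volume] S' → K S'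
  rot : ∀ S, K S → ∀ O : E n ≃ₗᵢ[ℝ] E n, K (gmtRot O S)

/-- the limit of Allen-Cahn solutions on the sphere, as a cone; its blow-ups away from the vertex lie in the class `K`. -/
structure SphLim (n : ℕ) (K : Set (E n) → Prop) (S : Set (E n)) (a : ℝ) : Prop where
  meas : MeasurableSet S
  cone : GmtCone S
  lf : GmtLF S univ
  stat : ∀ X, GmtTestS univ X → gmtDelta S X = 0
  area : linkArea S = a
  blow : ∀ x, x ≠ 0 → ∀ r : ℕ → ℝ, (∀ j, 0 < r j) → Tendsto r atTop (𝓝 0) → ∃ S', K S' ∧ BlowTo S x r S'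

/-! ### the Jacobi form -/

/-- smooth `0`-homogeneous functions (= smooth functions on the sphere). -/
structure Hom0 (φ : E n → ℝ) : Prop where
  smooth : ContDiffOn ℝ ∞ φ {0}ᶜ
  hom : ∀ t : ℝ, 0 < t → ∀ x, φ (t • x) = φ x

/-- `B(φ,χ) = ∫_Σ (-∇φ·∇χ + (m + |A|²) φ χ)`, `m = n - 2`, written on the cone (`d` = signed distance to the cone, `|A|²(x/|x|) = |x|² |D²d|²(x)`). -/
noncomputable def jacB (S : Set (E n)) (φ χ : E n → ℝ) : ℝ :=
  ((n : ℝ) - 1) * ∫ x in ball (0 : E n) 1,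
    (-(‖x‖ ^ 2 * gmtSimTg (gmtSimSd S) φ χ x) + (‖x‖ ^ 2 * gmtSimA (gmtSimSd S) x + ((n : ℝ) - 2)) * (φ x * χ x)) ∂(gmtMu S)

/-- there is a direction `η`, `B`-orthogonal to `W = span{1, x_i}`, with `B(η,η) > 0` ("index `≥ m + 4`"). -/
def ExtraIndex (S : Set (E n)) : Prop :=
  ∃ η : E n → ℝ, Hom0 η ∧ jacB S η (fun _ => 1) = 0 ∧ (∀ a : E n, jacB S η (fun x => ⟪a, x⟫ / ‖x‖) = 0) ∧ 0 < jacB S η η

end Claimed.Agent.R323
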