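import Claimed.Agent.R323.Mm.Main
import Claimed.Agent.R323.Ht.Main
import Claimed.Agent.R323.Rg.Main
import Claimed.Agent.R323.Fa.Main
import Claimed.Agent.R323.Ix.Main
import Claimed.Agent.R323.Ad.Main

/-!
# Row 323: THE TOP.   Captain: helper20.

`tt_step`: LOGIC of the proof (report 863 (5)).  Let `w` be the Allen-Cahn width, `μ* = liminf_{ε → 0} w ε`.
* `μ* ≥ g σ_m`, `g > 1` (gap), `μ* ≤ |Σ|` for every non flat minimal cone (family).
* If some non flat minimal cone has area `< a_m`, then `μ* < a_m < 2 σ_m`; solutions `U_i` at `ε_i → 0` with energies `→ μ*` converge (C) to a cone `S*` of area `μ*`,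
  which is regular (D, uses `T(k)`, `k < m`), not a half space (`μ* > σ_m`), of area `< a_m`: so it has an extra index direction (F) and ITS OWN family gives
  `w ε ≤ μ* - c` for small `ε` (E): contradiction with the definition of `μ*`.
-/

set_option autoImplicit false
open scoped ContDiff ENNReal NNReal RealInnerProductSpace Topology
open MeasureTheory Metric Set Filter

namespace Claimed.Agent.R323

open Claimed.Agent.Gmt

/-- elementary: a function on `(0,∞)` which is eventually bounded below and frequently bounded above near `0+` has a "liminf" attained along a sequence. -/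
theorem top_liminf (w : ℝ → ℝ) (b c : ℝ) (hb : ∀ᶠ ε in 𝓝[>] (0 : ℝ), b ≤ w ε) (hc : ∃ᶠ ε in 𝓝[>] (0 : ℝ), w ε ≤ c) :
    ∃ a : ℝ, b ≤ a ∧ a ≤ c ∧ (∀ δ > 0, ∀ᶠ ε in 𝓝[>] (0 : ℝ), a - δ < w ε) ∧
      ∃ e : ℕ → ℝ, (∀ i, 0 < e i) ∧ Tendsto e atTop (𝓝 0) ∧ Tendsto (fun i => w (e i)) atTop (𝓝 a) := by
  set A : Set ℝ := {t | ∃ᶠ ε in 𝓝[>] (0 : ℝ), w ε ≤ t} with hA
  have hcA : c ∈ A := hc
  have hlb : ∀ t ∈ A, b ≤ t := by
    intro t ht
    obtain ⟨ε, h1, h2⟩ := (Filter.Frequently.and_eventually ht hb).exists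
    exact h2.trans h1
  have hbdd : BddBelow A := ⟨b, hlb⟩
  have h3 : ∀ δ > 0, ∀ᶠ ε in 𝓝[>] (0 : ℝ), sInf A - δ < w ε := by
    intro δ hδ
    have hn : sInf A - δ ∉ A := fun h => by
      have := csInf_le hbdd h
      linarith
    have : ¬ ∃ᶠ ε in 𝓝[>] (0 : ℝ), w ε ≤ sInf A - δ := hn
    rw [Filter.not_frequently] at this
    filter_upwards [this] with ε hε
    exact not_le.1 hε
  have hex : ∀ i : ℕ, ∃ ε : ℝ, 0 < ε ∧ ε < 1 / ((i : ℝ) + 1) ∧ w ε < sInf A + 1 / ((i : ℝ) + 1) ∧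
      sInf A - 1 / ((i : ℝ) + 1) < w ε := by
    intro i
    have hi : (0 : ℝ) < 1 / ((i : ℝ) + 1) := by positivity
    obtain ⟨t, htA, ht⟩ := exists_lt_of_csInf_lt ⟨c, hcA⟩ (show sInf A < sInf A + 1 / ((i : ℝ) + 1) by linarith)
    have h4 : ∀ᶠ ε in 𝓝[>] (0 : ℝ), ε ∈ Ioo (0 : ℝ) (1 / ((i : ℝ) + 1)) := Ioo_mem_nhdsGT hi
    obtain ⟨ε, h5, h6, h7⟩ := (Filter.Frequently.and_eventually htA ((h3 _ hi).and h4)).exists
    exact ⟨ε, h7.1, h7.2, lt_of_le_of_lt h5 ht, h6⟩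
  choose e he1 he2 he3 he4 using hex
  have hlim : Tendsto (fun i : ℕ => 1 / ((i : ℝ) + 1)) atTop (𝓝 0) := tendsto_one_div_add_atTop_nhds_zero_nat
  refine ⟨sInf A, le_csInf ⟨c, hcA⟩ hlb, csInf_le hbdd hcA, h3, e, he1, ?_, ?_⟩
  · exact squeeze_zero (fun i => (he1 i).le) (fun i => (he2 i).le) hlim
  · have hu : Tendsto (fun i : ℕ => sInf A + 1 / ((i : ℝ) + 1)) atTop (𝓝 (sInf A)) := by
      simpa using tendsto_const_nhds.add hlim
    have hl : Tendsto (fun i : ℕ => sInf A - 1 / ((i : ℝ) + 1)) atTop (𝓝 (sInf A)) := by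
      simpa using (tendsto_const_nhds (x := sInf A)).sub hlim
    exact tendsto_of_tendsto_of_tendsto_of_le_of_le hl hu (fun i => (he4 i).le) (fun i => (he3 i).le)

theorem tt_step (m : ℕ) (hm : 2 ≤ m) (IH : ∀ k, 2 ≤ k → k < m → TT k) : TT m := by
  intro S hS hnf
  by_contra hlt
  push_neg at hlt
  obtain ⟨w, hw⟩ := mm_width m hm
  have hσ := nuc_sig_pos m
  -- the liminf
  have hfreq : ∀ δ > 0, ∃ᶠ ε in 𝓝[>] (0 : ℝ), w ε ≤ linkArea S + δ := fun δ hδ =>
    (fa_upper m hm w hw S hS hnf δ hδ).frequently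
  obtain ⟨g, hg1, hgap⟩ := hw.gap
  obtain ⟨a, ha1, -, ha3, e, he0, he, hwe⟩ := top_liminf w _ _ hgap (hfreq 1 one_pos)
  have ha2 : a ≤ linkArea S := by
    refine le_of_forall_pos_le_add fun δ hδ => ?_
    by_contra hcon
    push_neg at hcon
    have h1 := ha3 (a - (linkArea S + δ)) (by linarith)
    obtain ⟨ε, h2, h3⟩ := ((hfreq δ hδ).and_eventually h1).exists
    linarith
  have halt : a < cliffMin m := lt_of_le_of_lt ha2 hlt
  have ha0 : 0 < a := by nlinarith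
  -- solutions
  choose U hU hUE using fun i => hw.sol (e i) (he0 i)
  have hE : Tendsto (fun i => acE (m + 2) (e i) (U i)) atTop (𝓝 a) := by
    simpa [hUE] using hwe
  obtain ⟨K, T, hK, hT⟩ := ht_main m hm e U a he0 he hU hE (halt.trans (nuc_lt_two m hm))
  have hTc : MinCone (m + 2) T := rg_main m hm IH K T a ha0 halt hK hT
  have hTnf : ¬ IsHalf T := by
    intro hh
    have := rg_half_area m T hT.meas hh
    rw [hT.area] at this
    nlinarith
  have hx : ExtraIndex T := ix_extra m hm T hTc hTnf (by rw [hT.area]; exact halt)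
  obtain ⟨c, hc, hstr⟩ := fa_strict m hm w hw T hTc hTnf hx
  rw [hT.area] at hstr
  obtain ⟨ε, h1, h2⟩ := (hstr.and (ha3 c hc)).exists
  linarith

theorem tt_all (m : ℕ) (hm : 2 ≤ m) : TT m := by
  induction m using Nat.strong_induction_on with
  | _ m ih => exact tt_step m hm fun k hk hkm => ih k hkm hk

end Claimed.Agent.R323

namespace Claimed.Agent.R323

open Claims Claims.C0508
open scoped Manifold ContDiff ENNReal
open MeasureTheory

/-- the frozen statement S0580. -/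
theorem top_result (m : ℕ) (hm : 2 ≤ m) (M : Type*) [TopologicalSpace M]
    [T2Space M] [CompactSpace M] [ConnectedSpace M]
    [ChartedSpace (EuclideanSpace ℝ (Fin m)) M] [IsManifold (𝓡 m) ∞ M]
    (F : M → EuclideanSpace ℝ (Fin (m + 2)))
    (hF : ContMDiff (𝓡 m) 𝓘(ℝ, EuclideanSpace ℝ (Fin (m + 2))) ∞ F)
    (hsph : ∀ x, ‖F x‖ = 1)
    (himm : ∀ x, Function.Injective (mfderiv (𝓡 m) 𝓘(ℝ, EuclideanSpace ℝ (Fin (m + 2))) F x))
    (hmin : IsMinimalInSphere m F)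
    (hntg : ¬ ∃ a : EuclideanSpace ℝ (Fin (m + 2)), a ≠ 0 ∧ ∀ x, inner ℝ a (F x) = 0) :
    (⨅ (k : ℕ) (_ : 1 ≤ k ∧ k < m), μH[(m : ℝ)] (cliffordProduct m k)) ≤ volWithMult m F :=
  ad_main m hm (tt_all m hm) M F hF hsph himm hmin hntg

end Claimed.Agent.R323
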